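import Vale.Agent.Lib.P060.Circulant

namespace Vale.Agent.Results.P060.CirculantEven

open Vale.Agent.Lib.P060

/-- Every circulant graph of even order `2m` with independence number at most `2` has a complete
minor on `m` vertices (half of its order); if moreover its complement is connected, it satisfies
Hadwiger's conjecture. -/
theorem result (m : ℕ) (hm : 1 ≤ m) (C : Set (ZMod (2 * m)))
    (hα : (circulantGraph (2 * m) C).indepNum ≤ 2) :
    HasCliqueMinor (circulantGraph (2 * m) C) m ∧
    ((circulantGraph (2 * m) C)ᶜ.Connected →
      ∀ t : ℕ, ¬ HasCliqueMinor (circulantGraph (2 * m) C) (t + 1) →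
        (circulantGraph (2 * m) C).Colorable t) :=
  circulant_even_hadwiger m hm C hα

end Vale.Agent.Results.P060.CirculantEven
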