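import Vale.Agent.Lib.P060.CircOdd2

namespace Vale.Agent.Results.P060.CirculantOdd

open Vale.Agent.Lib.P060

/-- Circulant graphs of odd order with independence number at most `2`.

(1) If some generator `δ` of `ZMod (2m+1)` has `2δ ≠ 0` non-adjacent to `0` and `3δ` adjacent to `0`,
then the graph has a complete minor on `m+1` vertices and satisfies Hadwiger's conjecture.

(2) Let `p ≥ 5` be a prime such that every set of residues mod `p` that contains `1` and is closed
under `x ↦ -x` and `x ↦ 3x/2` contains two elements together with their sum. Then every circulant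
graph of order `p` with independence number at most `2` satisfies Hadwiger's conjecture.

(3) In particular this holds for every prime `p ≥ 5` with `2 ^ (k+1) = ± 3 ^ k` mod `p` for
some `k`. -/
theorem result :
    (∀ (m : ℕ) (C : Set (ZMod (2 * m + 1))) (δ : ZMod (2 * m + 1)),
      (circulantGraph (2 * m + 1) C).indepNum ≤ 2 → IsUnit δ → 2 * δ ≠ 0 →
      ¬ (circulantGraph (2 * m + 1) C).Adj 0 (2 * δ) →
      (circulantGraph (2 * m + 1) C).Adj 0 (3 * δ) →
      HasCliqueMinor (circulantGraph (2 * m + 1) C) (m + 1) ∧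
      ∀ t : ℕ, ¬ HasCliqueMinor (circulantGraph (2 * m + 1) C) (t + 1) →
        (circulantGraph (2 * m + 1) C).Colorable t) ∧
    (∀ p : ℕ, p.Prime → 5 ≤ p →
      (∀ T : Set (ZMod p), (1 : ZMod p) ∈ T → (∀ x ∈ T, -x ∈ T) →
        (∀ x ∈ T, ∀ y : ZMod p, 2 * y = 3 * x → y ∈ T) → ∃ a ∈ T, ∃ b ∈ T, a + b ∈ T) →
      ∀ C : Set (ZMod p), (circulantGraph p C).indepNum ≤ 2 →
        ∀ t : ℕ, ¬ HasCliqueMinor (circulantGraph p C) (t + 1) →
          (circulantGraph p C).Colorable t) ∧
    (∀ p : ℕ, p.Prime → 5 ≤ p → ∀ k : ℕ,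
      ((2 : ZMod p) ^ (k + 1) = 3 ^ k ∨ (2 : ZMod p) ^ (k + 1) = -3 ^ k) →
      ∀ C : Set (ZMod p), (circulantGraph p C).indepNum ≤ 2 →
        ∀ t : ℕ, ¬ HasCliqueMinor (circulantGraph p C) (t + 1) →
          (circulantGraph p C).Colorable t) := by
  refine ⟨?_, ?_, ?_⟩
  · intro m C δ hα hδ h20 h2 h3
    exact circulant_odd_hadwiger m C hα δ hδ ⟨h20, h2⟩ h3
  · intro p hp hp5 hM C hα
    have : Fact p.Prime := ⟨hp⟩
    exact circulant_prime_hadwiger p hp5 hM C hα
  · intro p hp hp5 k hk C hα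
    have : Fact p.Prime := ⟨hp⟩
    exact circulant_prime_hadwiger p hp5 (closure_of_pow p hp5 k hk) C hα

end Vale.Agent.Results.P060.CirculantOdd
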