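import Vale.Agent.Lib.P060.Circulant
import Vale.Agent.Lib.P060.CircOdd2
import Vale.Agent.Lib.P060.Kneser
import Vale.Agent.Lib.P060.Schrijver

namespace Vale.Agent.Results.P060.FourFamilies

open Vale.Agent.Lib.P060

/-- Hadwiger's conjecture for four infinite families of graphs (the conjunction of the results on
Kneser graphs, Schrijver graphs, circulant graphs of even order with independence number at
most `2`, and circulant graphs of odd order with independence number at most `2`).

(A) Every Kneser graph `KG(n,k)`, `n ≥ 2k ≥ 2`, has a complete minor on `n - 2k + 2` vertices and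
satisfies Hadwiger's conjecture.

(B) Every Schrijver graph `SG(n,k)`, `n ≥ 2k ≥ 2`, has a complete minor on `n - 2k + 2` vertices
and satisfies Hadwiger's conjecture.

(C) Every circulant graph of even order `2m` with independence number at most `2` has a complete
minor on `m` vertices; if moreover its complement is connected, it satisfies Hadwiger's
conjecture.

(D) Circulant graphs of odd order with independence number at most `2`: (D1) if some generator
`δ` of `ZMod (2m+1)` has `2δ ≠ 0` non-adjacent to `0` and `3δ` adjacent to `0`, then the graph has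
a complete minor on `m+1` vertices and satisfies Hadwiger's conjecture; (D2) if `p ≥ 5` is a prime
such that every set of residues mod `p` containing `1` and closed under `x ↦ -x` and `x ↦ 3x/2`
contains two elements together with their sum, then every circulant graph of order `p` with
independence number at most `2` satisfies Hadwiger's conjecture; (D3) in particular this holds
for every prime `p ≥ 5` with `2 ^ (k+1) = ± 3 ^ k` mod `p` for some `k`. -/
theorem result :
    (∀ n k : ℕ, 1 ≤ k → 2 * k ≤ n →
      HasCliqueMinor (kneserGraph n k) (n - 2 * k + 2) ∧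
      ∀ t : ℕ, ¬ HasCliqueMinor (kneserGraph n k) (t + 1) → (kneserGraph n k).Colorable t) ∧
    (∀ n k : ℕ, 1 ≤ k → 2 * k ≤ n →
      HasCliqueMinor (schrijverGraph n k) (n - 2 * k + 2) ∧
      ∀ t : ℕ, ¬ HasCliqueMinor (schrijverGraph n k) (t + 1) →
        (schrijverGraph n k).Colorable t) ∧
    (∀ m : ℕ, 1 ≤ m → ∀ C : Set (ZMod (2 * m)),
      (circulantGraph (2 * m) C).indepNum ≤ 2 →
      HasCliqueMinor (circulantGraph (2 * m) C) m ∧
      ((circulantGraph (2 * m) C)ᶜ.Connected →
        ∀ t : ℕ, ¬ HasCliqueMinor (circulantGraph (2 * m) C) (t + 1) →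
          (circulantGraph (2 * m) C).Colorable t)) ∧
    (∀ (m : ℕ) (C : Set (ZMod (2 * m + 1))) (δ : ZMod (2 * m + 1)),
      (circulantGraph (2 * m + 1) C).indepNum ≤ 2 → IsUnit δ → 2 * δ ≠ 0 →
      ¬ (circulantGraph (2 * m + 1) C).Adj 0 (2 * δ) →
      (circulantGraph (2 * m + 1) C).Adj 0 (3 * δ) →
      HasCliqueMinor (circulantGraph (2 * m + 1) C) (m + 1) ∧
      ∀ t : ℕ, ¬ HasCliqueMinor (circulantGraph (2 * m + 1) C) (t + 1) →
        (circulantGraph (2 * m + 1) C).Colorable t) ∧
    (∀ p : ℕ, p.Prime → 5 ≤ p →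
      (∀ T : Set (ZMod p), (1 : ZMod p) ∈ T → (∀ x ∈ T, -x ∈ T) →
        (∀ x ∈ T, ∀ y : ZMod p, 2 * y = 3 * x → y ∈ T) → ∃ a ∈ T, ∃ b ∈ T, a + b ∈ T) →
      ∀ C : Set (ZMod p), (circulantGraph p C).indepNum ≤ 2 →
        ∀ t : ℕ, ¬ HasCliqueMinor (circulantGraph p C) (t + 1) →
          (circulantGraph p C).Colorable t) ∧
    (∀ p : ℕ, p.Prime → 5 ≤ p → ∀ k : ℕ,
      ((2 : ZMod p) ^ (k + 1) = 3 ^ k ∨ (2 : ZMod p) ^ (k + 1) = -3 ^ k) →
      ∀ C : Set (ZMod p), (circulantGraph p C).indepNum ≤ 2 →
        ∀ t : ℕ, ¬ HasCliqueMinor (circulantGraph p C) (t + 1) →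
          (circulantGraph p C).Colorable t) := by
  refine ⟨?_, ?_, ?_, ?_, ?_, ?_⟩
  · intro n k hk hn
    exact ⟨kneser_minor n k hk hn, fun t h => kneser_hadwiger n k hk hn t h⟩
  · intro n k hk hn
    exact ⟨schrijver_minor n k hk hn, fun t h => schrijver_hadwiger n k hk hn t h⟩
  · intro m hm C hα
    exact circulant_even_hadwiger m hm C hα
  · intro m C δ hα hδ h20 h2 h3
    exact circulant_odd_hadwiger m C hα δ hδ ⟨h20, h2⟩ h3
  · intro p hp hp5 hM C hα
    have : Fact p.Prime := ⟨hp⟩
    exact circulant_prime_hadwiger p hp5 hM C hα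
  · intro p hp hp5 k hk C hα
    have : Fact p.Prime := ⟨hp⟩
    exact circulant_prime_hadwiger p hp5 (closure_of_pow p hp5 k hk) C hα

end Vale.Agent.Results.P060.FourFamilies
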