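import Vale.Agent.Lib.P060.Schrijver

namespace Vale.Agent.Results.P060.SchrijverHadwiger

open Vale.Agent.Lib.P060

/-- Hadwiger's conjecture holds for every Schrijver graph (stable Kneser graph) `SG(n,k)`,
`n ≥ 2k ≥ 2`: it has a complete minor on `n - 2k + 2` vertices, and for every `t`, if it has no
complete minor on `t + 1` vertices then it is `t`-colourable. -/
theorem result (n k : ℕ) (hk : 1 ≤ k) (hn : 2 * k ≤ n) :
    HasCliqueMinor (schrijverGraph n k) (n - 2 * k + 2) ∧
    ∀ t : ℕ, ¬ HasCliqueMinor (schrijverGraph n k) (t + 1) → (schrijverGraph n k).Colorable t :=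
  ⟨schrijver_minor n k hk hn, fun t h => schrijver_hadwiger n k hk hn t h⟩

end Vale.Agent.Results.P060.SchrijverHadwiger
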